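import Vale.Agent.P040.Sph81.Defs

/-! # Abstract lemmas: telescoping over real keys, symmetric sums mod 2, small perturbations, selection of classes -/

namespace Vale.Agent.P040.Sph81

open Finset

/-- (T0) telescoping over the down-sets of an injective real key.
Induction on `S` with `Finset.induction_on_max_value key`: for `S = insert m S'`, `key x ≤ key m` on `S'`
(so `< ` by injectivity): for `w ∈ S'` the two filters over `insert m S'` equal the filters over `S'`;
for `w = m` they are `insert m S'` and `S'`. -/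
theorem tele (key : ℕ → ℝ) (Psi : Finset ℕ → ZMod 2) (S : Finset ℕ)
    (hinj : ∀ x ∈ S, ∀ y ∈ S, key x = key y → x = y) :
    ∑ w ∈ S, (Psi (S.filter fun x => key x ≤ key w) - Psi (S.filter fun x => key x < key w))
      = Psi S - Psi ∅ := by
  induction S using Finset.induction_on_max_value key with
  | empty => simp
  | insert m S' hm hmax ih =>
    have hlt : ∀ x ∈ S', key x < key m := by
      intro x hx
      refine lt_of_le_of_ne (hmax x hx) ?_
      intro h
      have := hinj x (mem_insert_of_mem hx) m (mem_insert_self m S') h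
      exact hm (this ▸ hx)
    have ih' := ih (fun x hx y hy => hinj x (mem_insert_of_mem hx) y (mem_insert_of_mem hy))
    rw [sum_insert hm]
    have e1 : ((insert m S').filter fun x => key x ≤ key m) = insert m S' := by
      apply filter_true_of_mem
      intro x hx
      rcases mem_insert.1 hx with rfl | hx
      · exact le_rfl
      · exact (hlt x hx).le
    have e2 : ((insert m S').filter fun x => key x < key m) = S' := by
      ext x
      rw [mem_filter, mem_insert]
      constructor
      · rintro ⟨rfl | hx, h⟩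
        · exact absurd h (lt_irrefl _)
        · exact hx
      · exact fun hx => ⟨Or.inr hx, hlt x hx⟩
    have e3 : ∀ w ∈ S', (Psi ((insert m S').filter fun x => key x ≤ key w) -
        Psi ((insert m S').filter fun x => key x < key w)) =
        (Psi (S'.filter fun x => key x ≤ key w) - Psi (S'.filter fun x => key x < key w)) := by
      intro w hw
      have h1 : ¬ key m ≤ key w := not_le.2 (hlt w hw)
      have h2 : ¬ key m < key w := fun h => h1 h.le
      rw [filter_insert, if_neg h1, filter_insert, if_neg h2]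
    rw [e1, e2, sum_congr rfl e3, ih']
    ring

/-- (S0) a symmetric function summed over ordered pairs of distinct elements vanishes mod 2.
Rewrite as a sum over `(S ×ˢ S).filter (fun p => p.1 ≠ p.2)` (`Finset.sum_product`, `sum_filter`, or
`Finset.sum_sigma`) and use `Finset.sum_involution` with the swap; `a + a = 0` in `ZMod 2`
(`CharTwo.add_self_eq_zero`). -/
theorem symm_sum (S : Finset ℕ) (G : ℕ → ℕ → ZMod 2) (hG : ∀ u ∈ S, ∀ w ∈ S, u ≠ w → G u w = G w u) :
    ∑ u ∈ S, ∑ w ∈ S.erase u, G u w = 0 := by
  have h1 : ∑ u ∈ S, ∑ w ∈ S.erase u, G u w =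
      ∑ p ∈ (S ×ˢ S).filter (fun p => p.1 ≠ p.2), G p.1 p.2 := by
    rw [sum_filter, sum_product]
    refine sum_congr rfl fun u _ => ?_
    rw [← sum_filter]
    refine sum_congr ?_ fun _ _ => rfl
    ext w
    simp only [mem_erase, mem_filter]
    constructor
    · rintro ⟨h1, h2⟩
      exact ⟨h2, fun h => h1 h.symm⟩
    · rintro ⟨h1, h2⟩
      exact ⟨fun h => h2 h.symm, h1⟩
  rw [h1]
  refine sum_involution (fun p _ => (p.2, p.1)) ?_ ?_ ?_ ?_
  · intro p hp
    simp only [mem_filter, mem_product] at hp
    rw [hG p.1 hp.1.1 p.2 hp.1.2 hp.2]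
    exact CharTwo.add_self_eq_zero _
  · intro p hp _ heq
    simp only [mem_filter, mem_product] at hp
    apply hp.2
    have := congrArg Prod.fst heq
    exact this.symm
  · intro p hp
    simp only [mem_filter, mem_product] at hp ⊢
    exact ⟨⟨hp.1.2, hp.1.1⟩, fun h => hp.2 h.symm⟩
  · intro p _
    rfl

/-- (E0) small perturbation: finitely many nonzero numbers keep their sign.
Induction on `S` (take the minimum of the two deltas), or `δ = min` of `|p x| / (|q x| + 1)`. -/
theorem small_delta (S : Finset ℕ) (p q : ℕ → ℝ) (hp : ∀ x ∈ S, p x ≠ 0) :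
    ∃ δ : ℝ, 0 < δ ∧ ∀ x ∈ S, (0 < p x + δ * q x ↔ 0 < p x) ∧ p x + δ * q x ≠ 0 := by
  have key : ∀ (P Q : ℝ), P ≠ 0 → ∀ ε : ℝ, 0 < ε → ε * (|Q| + 1) ≤ |P| →
      (0 < P + ε * Q ↔ 0 < P) ∧ P + ε * Q ≠ 0 := by
    intro P Q hP ε hε hle
    have h1 : |ε * Q| < |P| := by
      rw [abs_mul, abs_of_pos hε]
      nlinarith [abs_nonneg Q]
    have h2 := abs_lt.mp h1
    rcases lt_or_gt_of_ne hP with hneg | hpos
    · rw [abs_of_neg hneg] at h2
      have h3 : P + ε * Q < 0 := by linarith [h2.2]
      exact ⟨⟨fun h => by linarith, fun h => by linarith⟩, h3.ne⟩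
    · rw [abs_of_pos hpos] at h2
      have h3 : 0 < P + ε * Q := by linarith [h2.1]
      exact ⟨⟨fun _ => hpos, fun _ => h3⟩, h3.ne'⟩
  have aux : ∃ δ0 : ℝ, 0 < δ0 ∧ ∀ x ∈ S, δ0 * (|q x| + 1) ≤ |p x| := by
    induction S using Finset.induction_on with
    | empty => exact ⟨1, one_pos, by simp⟩
    | insert a S _ ih =>
      obtain ⟨δ, hδ, h⟩ := ih (fun x hx => hp x (mem_insert_of_mem hx))
      have hpa : 0 < |p a| := abs_pos.mpr (hp a (mem_insert_self a S))
      have hqa : 0 < |q a| + 1 := by positivity
      refine ⟨min δ (|p a| / (|q a| + 1)), lt_min hδ (div_pos hpa hqa), ?_⟩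
      intro x hx
      rcases mem_insert.mp hx with rfl | hx
      · calc min δ (|p x| / (|q x| + 1)) * (|q x| + 1)
            ≤ (|p x| / (|q x| + 1)) * (|q x| + 1) :=
              mul_le_mul_of_nonneg_right (min_le_right _ _) hqa.le
          _ = |p x| := div_mul_cancel₀ _ hqa.ne'
      · have hqx : 0 ≤ |q x| + 1 := by positivity
        exact (mul_le_mul_of_nonneg_right (min_le_left _ _) hqx).trans (h x hx)
  obtain ⟨δ, hδ, h⟩ := aux
  exact ⟨δ, hδ, fun x hx => key (p x) (q x) (hp x hx) δ hδ (h x hx)⟩

/-- (AB) selection of one class out of each pair `{C, τ C}`.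
`R` symmetric, so `ReflTransGen R` is an equivalence relation.  With an injective code
`c : α → ℕ` (`Encodable.encode`) put `m s = sInf (c '' {t | ReflTransGen R s t})` (attained: `Nat.sInf_mem`);
`m s = m t ↔ ReflTransGen R s t`.  Take `h s := m s < m (τ s)`. -/
theorem select {α : Type} [Encodable α] (R : α → α → Prop) (τ : α → α)
    (hsymm : ∀ s t, R s t → R t s) (hτ : ∀ s t, R s t → R (τ s) (τ t)) :
    ∃ h : α → Prop, (∀ s t, R s t → (h s ↔ h t)) ∧
      (∀ s, τ (τ s) = s → ¬ Relation.ReflTransGen R s (τ s) → (h (τ s) ↔ ¬ h s)) := by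
  classical
  have gsymm : ∀ s t, Relation.ReflTransGen R s t → Relation.ReflTransGen R t s := by
    intro s t h
    induction h with
    | refl => exact .refl
    | tail _ hbc ih => exact Relation.ReflTransGen.head (hsymm _ _ hbc) ih
  let m : α → ℕ := fun s => sInf (Encodable.encode '' {t | Relation.ReflTransGen R s t})
  have hne : ∀ s, (Encodable.encode '' {t | Relation.ReflTransGen R s t}).Nonempty :=
    fun s => ⟨_, s, .refl, rfl⟩
  have hmem : ∀ s, ∃ t, Relation.ReflTransGen R s t ∧ Encodable.encode t = m s := by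
    intro s
    obtain ⟨t, ht, e⟩ := Nat.sInf_mem (hne s)
    exact ⟨t, ht, e⟩
  have hcongr : ∀ s t, Relation.ReflTransGen R s t → m s = m t := by
    intro s t h
    have : {u | Relation.ReflTransGen R s u} = {u | Relation.ReflTransGen R t u} := by
      ext u
      exact ⟨fun hu => (gsymm _ _ h).trans hu, fun hu => h.trans hu⟩
    simp only [m, this]
  have hinj : ∀ s t, m s = m t → Relation.ReflTransGen R s t := by
    intro s t h
    obtain ⟨a, ha, ea⟩ := hmem s
    obtain ⟨b, hb, eb⟩ := hmem t
    have : a = b := Encodable.encode_injective (by rw [ea, eb, h])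
    subst this
    exact ha.trans (gsymm _ _ hb)
  refine ⟨fun s => m s < m (τ s), ?_, ?_⟩
  · intro s t h
    have h1 := hcongr s t (.single h)
    have h2 := hcongr (τ s) (τ t) (.single (hτ _ _ h))
    simp only [h1, h2]
  · intro s hs hn
    simp only [hs]
    have : m s ≠ m (τ s) := fun h => hn (hinj _ _ h)
    omega

end Vale.Agent.P040.Sph81
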