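import Vale.Agent.P040.Sph81.Alg
import Vale.Agent.P040.Sph81.Tele

/-! # Realisability of the states, moves -/

namespace Vale.Agent.P040.Sph81

open Finset Vale.Agent.P040.Sph56

variable {k : ℕ} {r : ℕ → V3} {z : V3}

/-- (R0) both determinants change sign (`det3_swap`), `erase` commutes. -/
theorem QQ_symm (u w : ℕ) : QQ k r z u w = QQ k r z w u := by
  ext x
  unfold QQ OO
  simp only [mem_filter, mem_erase, mem_range]
  rw [det3_swap (r w) (r u) (r x), det3_swap (r w) (r u) z, neg_mul_neg]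
  constructor
  · rintro ⟨⟨h1, h2, h3⟩, h4⟩
    exact ⟨⟨h2, h1, h3⟩, h4⟩
  · rintro ⟨⟨h1, h2, h3⟩, h4⟩
    exact ⟨⟨h2, h1, h3⟩, h4⟩

private theorem sub_R12 {s : St} {n : V3} (h : Rl k r s n) : s.2 ⊆ (range (2 * k + 1)).erase s.1 := by
  obtain ⟨h1, h2, h3, h4, h5⟩ := h
  intro j hj
  rw [h4] at hj
  simp only [mem_filter, mem_range] at hj
  simp only [mem_erase, mem_range]
  refine ⟨?_, hj.1⟩
  rintro rfl
  rw [h2] at hj
  exact lt_irrefl _ hj.2

/-- (R1) `dot_ng`; the positive set of `ng n` is the set of the `j ≠ s.1` with `dot n (r j) < 0`, i.e.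
`(range.erase s.1) \ s.2`; its card is `2k - k`. -/
theorem Rl_ng {s : St} {n : V3} (h : Rl k r s n) : Rl k r (tau k s) (ng n) := by
  have hsub := sub_R12 h
  obtain ⟨h1, h2, h3, h4, h5⟩ := h
  refine ⟨h1, ?_, ?_, ?_, ?_⟩
  · show dot (ng n) (r s.1) = 0
    rw [dot_ng, h2, neg_zero]
  · intro j hj hjs
    rw [dot_ng]
    exact neg_ne_zero.2 (h3 j hj hjs)
  · show ((range (2 * k + 1)).erase s.1) \ s.2 = _
    ext j
    simp only [mem_sdiff, mem_erase, mem_range, mem_filter, dot_ng]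
    constructor
    · rintro ⟨⟨hj1, hj2⟩, hj3⟩
      refine ⟨hj2, ?_⟩
      rw [h4] at hj3
      simp only [mem_filter, mem_range, not_and, not_lt] at hj3
      have := hj3 hj2
      have h6 := h3 j hj2 hj1
      have : dot n (r j) < 0 := lt_of_le_of_ne this h6
      linarith
    · rintro ⟨hj1, hj2⟩
      refine ⟨⟨?_, hj1⟩, ?_⟩
      · rintro rfl
        rw [h2] at hj2
        simp at hj2
      · rw [h4]
        simp only [mem_filter, mem_range, not_and, not_lt]
        intro _
        linarith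
  · show (((range (2 * k + 1)).erase s.1) \ s.2).card = k
    rw [card_sdiff_of_subset hsub, card_erase_of_mem (mem_range.2 h1), card_range, h5]
    omega

/-- (R2) perturbation of the vertex.  `y = lin (0,0,0) (crs (r u) (r w)) (det3 (r u) (r w) z)`, so
`dot y x = det3 u w z * det3 u w x`; `c = crs (r u) (crs (r u) (r w))`, `dot c (r u) = 0`,
`dot c (r w) = - nsq (crs u w) < 0`.  `small_delta` on `(OO k u).erase w` with `p x = dot y (r x)`,
`q x = e * dot c (r x)`; `n = lin y c (δ * e)`.  Here `e = 1` or `e = -1` fixes the sign at `w`. -/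
theorem vertex_pert (hgp : GP k r) (hz : Gz k r z) {u w : ℕ} (hu : u < 2 * k + 1) (hw : w ∈ OO k u)
    (e : ℝ) (he : e = 1 ∨ e = -1) :
    ∃ n, dot n (r u) = 0 ∧ 0 < e * dot n (r w) ∧
      ∀ x ∈ (OO k u).erase w, (0 < dot n (r x) ↔ 0 < det3 (r u) (r w) (r x) * det3 (r u) (r w) z) ∧
        dot n (r x) ≠ 0 := by
  have hw' : w ≠ u ∧ w < 2 * k + 1 := by
    have h := hw
    unfold OO at h
    rw [mem_erase, mem_range] at h
    exact h
  have hD : det3 (r u) (r w) z ≠ 0 := hz u hu w hw'.2 (Ne.symm hw'.1)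
  have hm : 0 < dot (crs (r u) (r w)) (crs (r u) (r w)) := nsq_pos (r u) (r w) z hD
  set y : V3 := lin (0, 0, 0) (crs (r u) (r w)) (det3 (r u) (r w) z) with hy
  set c : V3 := crs (r u) (crs (r u) (r w)) with hc
  have hyx : ∀ x : V3, dot y x = det3 (r u) (r w) z * det3 (r u) (r w) x := by
    intro x
    rw [hy, dot_lin, dot_crs]
    unfold dot
    simp
  have hcu : dot c (r u) = 0 := by
    rw [hc]; unfold dot crs; ring
  have hcw : dot c (r w) = - dot (crs (r u) (r w)) (crs (r u) (r w)) := by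
    rw [hc]; unfold dot crs; ring
  obtain ⟨δ, hδ, hδ2⟩ := small_delta ((OO k u).erase w) (fun x => dot y (r x))
    (fun x => (-e) * dot c (r x)) (by
      intro x hx
      have hx' : x ≠ w ∧ x ≠ u ∧ x < 2 * k + 1 := by
        have h := hx
        unfold OO at h
        rw [mem_erase, mem_erase, mem_range] at h
        exact h
      show dot y (r x) ≠ 0
      rw [hyx]
      exact mul_ne_zero hD (hgp u hu w hw'.2 x hx'.2.2 (Ne.symm hw'.1) (Ne.symm hx'.2.1)
        (Ne.symm hx'.1)))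
  refine ⟨lin y c (δ * (-e)), ?_, ?_, ?_⟩
  · rw [dot_lin, hyx, hcu]
    have : det3 (r u) (r w) (r u) = 0 := by unfold det3; ring
    rw [this]; ring
  · rw [dot_lin, hyx, hcw]
    have h0 : det3 (r u) (r w) (r w) = 0 := by unfold det3; ring
    rw [h0]
    have hee : e * e = 1 := by rcases he with h | h <;> rw [h] <;> norm_num
    have : e * (det3 (r u) (r w) z * 0 + δ * -e * -dot (crs (r u) (r w)) (crs (r u) (r w))) =
        (e * e) * (δ * dot (crs (r u) (r w)) (crs (r u) (r w))) := by ring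
    rw [this, hee, one_mul]
    exact mul_pos hδ hm
  · intro x hx
    have h := hδ2 x hx
    have e1 : dot (lin y c (δ * (-e))) (r x) = dot y (r x) + δ * ((-e) * dot c (r x)) := by
      rw [dot_lin]; ring
    rw [e1]
    refine ⟨?_, h.2⟩
    rw [h.1, hyx, mul_comm]

/-- (R3) `vertex_pert` with `e = -1`. -/
theorem real_Q (hgp : GP k r) (hz : Gz k r z) {u w : ℕ} (hu : u < 2 * k + 1) (hw : w ∈ OO k u)
    (hc : (QQ k r z u w).card = k) : ∃ n, Rl k r (u, QQ k r z u w) n := by
  obtain ⟨n, h1, h2, h3⟩ := vertex_pert hgp hz hu hw (-1) (Or.inr rfl)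
  refine ⟨n, hu, h1, ?_, ?_, hc⟩
  · intro j hj hju
    by_cases hjw : j = w
    · subst hjw
      intro h0
      rw [h0] at h2
      simp at h2
    · exact (h3 j (by simp [OO, hjw, hju, hj])).2
  · ext x
    simp only [QQ, OO, mem_filter, mem_erase, mem_range]
    constructor
    · rintro ⟨⟨hxw, hxu, hx⟩, hpos⟩
      exact ⟨hx, (h3 x (by simp [OO, hxw, hxu, hx])).1.2 hpos⟩
    · rintro ⟨hx, hpos⟩
      have hxu : x ≠ u := by
        rintro rfl
        rw [h1] at hpos
        exact lt_irrefl _ hpos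
      have hxw : x ≠ w := by
        rintro rfl
        linarith
      exact ⟨⟨hxw, hxu, hx⟩, (h3 x (by simp [OO, hxw, hxu, hx])).1.1 hpos⟩

/-- (R4) `vertex_pert` with `e = 1`. -/
theorem real_insQ (hgp : GP k r) (hz : Gz k r z) {u w : ℕ} (hu : u < 2 * k + 1) (hw : w ∈ OO k u)
    (hc : (QQ k r z u w).card + 1 = k) : ∃ n, Rl k r (u, insert w (QQ k r z u w)) n := by
  obtain ⟨n, hn0, hnw, hx⟩ := vertex_pert hgp hz hu hw 1 (Or.inl rfl)
  rw [one_mul] at hnw
  have hw' : w ≠ u ∧ w < 2 * k + 1 := by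
    have := hw
    unfold OO at this
    rw [mem_erase, mem_range] at this
    exact this
  have hmem : ∀ j < 2 * k + 1, j ≠ u → j ≠ w → j ∈ (OO k u).erase w := by
    intro j hj hju hjw
    unfold OO
    rw [mem_erase, mem_erase, mem_range]
    exact ⟨hjw, hju, hj⟩
  refine ⟨n, hu, hn0, ?_, ?_, ?_⟩
  · intro j hj hju
    by_cases hjw : j = w
    · rw [hjw]; exact hnw.ne'
    · exact (hx j (hmem j hj hju hjw)).2
  · show insert w (QQ k r z u w) = (range (2 * k + 1)).filter (fun j => 0 < dot n (r j))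
    ext j
    rw [mem_insert, mem_filter, mem_range]
    constructor
    · rintro (rfl | hj)
      · exact ⟨hw'.2, hnw⟩
      · unfold QQ at hj
        rw [mem_filter] at hj
        have h1 := hj.1
        unfold OO at h1
        rw [mem_erase, mem_erase, mem_range] at h1
        exact ⟨h1.2.2, ((hx j hj.1).1).2 hj.2⟩
    · rintro ⟨hj, hpos⟩
      by_cases hjw : j = w
      · exact Or.inl hjw
      · right
        have hju : j ≠ u := by
          rintro rfl
          rw [hn0] at hpos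
          exact lt_irrefl _ hpos
        unfold QQ
        rw [mem_filter]
        exact ⟨hmem j hj hju hjw, ((hx j (hmem j hj hju hjw)).1).1 hpos⟩
  · show (insert w (QQ k r z u w)).card = k
    rw [card_insert_of_notMem, hc]
    unfold QQ
    rw [mem_filter, mem_erase]
    intro h
    exact h.1.1 rfl

/-- (R5) `dot_crs`; `dot (crs (r u) z) (r u) = det3 (r u) z (r u) = 0`. -/
theorem real_inf (hz : Gz k r z) {u : ℕ} (hu : u < 2 * k + 1) (hc : (Pp k r z u).card = k) :
    Rl k r (u, Pp k r z u) (crs (r u) z) := by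
  have h0 : dot (crs (r u) z) (r u) = 0 := by
    rw [dot_crs]; unfold det3; ring
  refine ⟨hu, h0, ?_, ?_, hc⟩
  · intro j hj hju
    rw [dot_crs]
    have h1 := hz u hu j hj (Ne.symm hju)
    intro h2
    apply h1
    have h3 : det3 (r u) (r j) z = - det3 (r u) z (r j) := by unfold det3; ring
    rw [h3, h2, neg_zero]
  · show Pp k r z u = (range (2 * k + 1)).filter (fun j => 0 < dot (crs (r u) z) (r j))
    ext x
    unfold Pp OO be
    rw [mem_filter, mem_filter, mem_erase, mem_range, dot_crs]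
    constructor
    · rintro ⟨⟨_, h1⟩, h2⟩
      exact ⟨h1, h2⟩
    · rintro ⟨h1, h2⟩
      refine ⟨⟨?_, h1⟩, h2⟩
      rintro rfl
      rw [← dot_crs, h0] at h2
      exact lt_irrefl _ h2

/-- (R6) `be ≠ 0` on `OO k u`. -/
theorem tau_inf (hz : Gz k r z) {u : ℕ} (hu : u < 2 * k + 1) :
    tau k (u, Pp k r z u) = (u, Pm k r z u) := by
  unfold tau
  simp only [Prod.mk.injEq, true_and]
  ext x
  unfold Pp Pm OO
  simp only [mem_sdiff, mem_filter, mem_erase, mem_range, not_and, not_lt]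
  constructor
  · rintro ⟨⟨h1, h2⟩, h3⟩
    refine ⟨⟨h1, h2⟩, lt_of_le_of_ne (h3 ⟨h1, h2⟩) ?_⟩
    unfold be
    rw [det3_swap']
    exact neg_ne_zero.mpr (hz u hu x h2 (Ne.symm h1))
  · rintro ⟨⟨h1, h2⟩, h3⟩
    exact ⟨⟨h1, h2⟩, fun _ => h3.le⟩

/-- (R7) `Pp` and `Pm` split `OO k u`, which has `2k` elements. -/
theorem card_Pp_Pm (hz : Gz k r z) {u : ℕ} (hu : u < 2 * k + 1) :
    (Pp k r z u).card + (Pm k r z u).card = 2 * k := by
  have e : Pm k r z u = (OO k u).filter (fun x => ¬ 0 < be (r u) z (r x)) := by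
    unfold Pm
    apply filter_congr
    intro x hx
    unfold OO at hx
    rw [mem_erase, mem_range] at hx
    have hne : be (r u) z (r x) ≠ 0 := by
      unfold be
      rw [det3_swap']
      exact neg_ne_zero.mpr (hz u hu x hx.2 (Ne.symm hx.1))
    rw [not_lt]
    exact ⟨fun h => h.le, fun h => lt_of_le_of_ne h hne⟩
  rw [e]
  unfold Pp
  rw [card_filter_add_card_filter_not]
  unfold OO
  rw [card_erase_of_mem (mem_range.mpr hu), card_range]
  omega

/-- (R8) `real_Q` twice (`QQ_symm`), `w ∉ QQ`. -/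
theorem move_Q (hgp : GP k r) (hz : Gz k r z) {u w : ℕ} (hu : u < 2 * k + 1) (hw : w ∈ OO k u)
    (hc : (QQ k r z u w).card = k) : Move k r (u, QQ k r z u w) (w, QQ k r z u w) := by
  have hw' := hw
  unfold OO at hw'
  rw [mem_erase, mem_range] at hw'
  have hu' : u ∈ OO k w := by
    unfold OO
    rw [mem_erase, mem_range]
    exact ⟨Ne.symm hw'.1, hu⟩
  have hnot : w ∉ QQ k r z u w := by
    unfold QQ
    intro h
    exact (notMem_erase w _) (mem_filter.1 h).1
  refine ⟨real_Q hgp hz hu hw hc, ?_, Ne.symm hw'.1, Or.inl ⟨hnot, rfl⟩⟩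
  have := real_Q hgp hz hw'.2 hu' (by rw [QQ_symm]; exact hc)
  rwa [QQ_symm] at this

/-- (R9) `real_insQ` twice (`QQ_symm`), `(insert w Q).erase w = Q`. -/
theorem move_insQ (hgp : GP k r) (hz : Gz k r z) {u w : ℕ} (hu : u < 2 * k + 1) (hw : w ∈ OO k u)
    (hc : (QQ k r z u w).card + 1 = k) :
    Move k r (u, insert w (QQ k r z u w)) (w, insert u (QQ k r z u w)) := by
  have hw' := hw
  unfold OO at hw'
  rw [mem_erase, mem_range] at hw'
  have hu' : u ∈ OO k w := by
    unfold OO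
    rw [mem_erase, mem_range]
    exact ⟨Ne.symm hw'.1, hu⟩
  have hnot : w ∉ QQ k r z u w := by
    unfold QQ
    intro h
    exact (notMem_erase w _) (mem_filter.1 h).1
  refine ⟨real_insQ hgp hz hu hw hc, ?_, Ne.symm hw'.1, Or.inr ⟨mem_insert_self _ _, ?_⟩⟩
  · have := real_insQ hgp hz hw'.2 hu' (by rw [QQ_symm]; exact hc)
    rwa [QQ_symm] at this
  · show insert u (QQ k r z u w) = insert u ((insert w (QQ k r z u w)).erase w)
    rw [erase_insert hnot]

/-- (R10) the pivot of a realised state is not in its positive set. -/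
theorem move_symm {s t : St} (h : Move k r s t) : Move k r t s := by
  obtain ⟨⟨n, hn⟩, ⟨n', hn'⟩, hne, h⟩ := h
  have hs := sub_R12 hn
  have ht := sub_R12 hn'
  have hs1 : s.1 ∉ s.2 := fun hh => (mem_erase.1 (hs hh)).1 rfl
  have ht1 : t.1 ∉ t.2 := fun hh => (mem_erase.1 (ht hh)).1 rfl
  refine ⟨⟨n', hn'⟩, ⟨n, hn⟩, hne.symm, ?_⟩
  rcases h with ⟨h1, h2⟩ | ⟨h1, h2⟩
  · left
    exact ⟨h2 ▸ hs1, h2.symm⟩
  · right
    refine ⟨by rw [h2]; exact mem_insert_self _ _, ?_⟩
    rw [h2, erase_insert (by simp [hs1]), insert_erase h1]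

/-- (R11) `Rl_ng`; the first kind of move becomes the second kind and conversely (set algebra in
`range (2k+1)`, pivots not in the positive sets). -/
theorem move_tau {s t : St} (h : Move k r s t) : Move k r (tau k s) (tau k t) := by
  obtain ⟨⟨n, hn⟩, ⟨n', hn'⟩, hne, h⟩ := h
  have hs := sub_R12 hn
  have ht := sub_R12 hn'
  have hs1 : s.1 ∉ s.2 := fun hh => (mem_erase.1 (hs hh)).1 rfl
  have ht1 : t.1 ∉ t.2 := fun hh => (mem_erase.1 (ht hh)).1 rfl
  have hsU : s.1 < 2 * k + 1 := hn.1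
  have htU : t.1 < 2 * k + 1 := hn'.1
  refine ⟨⟨_, Rl_ng hn⟩, ⟨_, Rl_ng hn'⟩, hne, ?_⟩
  rcases h with ⟨h1, h2⟩ | ⟨h1, h2⟩
  · right
    refine ⟨?_, ?_⟩
    · show t.1 ∈ ((range (2 * k + 1)).erase s.1) \ s.2
      simp only [mem_sdiff, mem_erase, mem_range]
      exact ⟨⟨hne.symm, htU⟩, h1⟩
    · show ((range (2 * k + 1)).erase t.1) \ t.2
        = insert s.1 ((((range (2 * k + 1)).erase s.1) \ s.2).erase t.1)
      rw [h2]
      ext x
      simp only [mem_sdiff, mem_erase, mem_range, mem_insert]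
      constructor
      · rintro ⟨⟨a, b⟩, c⟩
        by_cases hx : x = s.1
        · exact Or.inl hx
        · exact Or.inr ⟨a, ⟨hx, b⟩, c⟩
      · rintro (rfl | ⟨a, ⟨b, c⟩, d⟩)
        · exact ⟨⟨hne, hsU⟩, hs1⟩
        · exact ⟨⟨a, c⟩, d⟩
  · left
    refine ⟨?_, ?_⟩
    · show t.1 ∉ ((range (2 * k + 1)).erase s.1) \ s.2
      simp only [mem_sdiff, not_and, not_not]
      exact fun _ => h1
    · show ((range (2 * k + 1)).erase t.1) \ t.2 = ((range (2 * k + 1)).erase s.1) \ s.2
      rw [h2]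
      ext x
      simp only [mem_sdiff, mem_erase, mem_range, mem_insert, not_or, not_and]
      constructor
      · rintro ⟨⟨a, b⟩, c, d⟩
        exact ⟨⟨c, b⟩, fun hx => d a hx⟩
      · rintro ⟨⟨a, b⟩, c⟩
        refine ⟨⟨?_, b⟩, a, fun _ => c⟩
        rintro rfl
        exact c h1

/-- (R12) `s.2 ⊆ (range (2k+1)).erase s.1`. -/
theorem tau_tau {s : St} {n : V3} (h : Rl k r s n) : tau k (tau k s) = s := by
  have hsub := sub_R12 h
  unfold tau
  ext1
  · rfl
  · show ((range (2 * k + 1)).erase s.1) \ (((range (2 * k + 1)).erase s.1) \ s.2) = s.2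
    rw [sdiff_sdiff_right_self]
    exact inf_eq_right.2 hsub

end Vale.Agent.P040.Sph81
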