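import Vale.Agent.P040.Sph81.Chart
import Vale.Agent.P040.Sph81.Real
import Vale.Agent.P040.Sph28.OddHalving

/-! # Some halving state is connected to its antipode -/

namespace Vale.Agent.P040.Sph81

open Finset Vale.Agent.P040.Sph56

variable {k : ℕ} {r : ℕ → V3} {z : V3}

/-- (M2) cases on `card Q = k`, `card Q + 1 = k`, neither (`Q = QQ k r z u w = QQ k r z w u`, `u, w ∉ Q`,
`card (insert _ Q) = card Q + 1`): `move_Q` resp. `move_insQ` and `hH`. -/
theorem GG_symm (hgp : GP k r) (hz : Gz k r z) (h : St → Prop)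
    (hH : ∀ s t, Move k r s t → (h s ↔ h t)) {u w : ℕ} (hu : u < 2 * k + 1) (hw : w ∈ OO k u) :
    GG k r z h u w = GG k r z h w u := by
  classical
  have hQ : QQ k r z w u = QQ k r z u w := QQ_symm w u
  have hwQ : w ∉ QQ k r z u w := by
    intro hm
    have h1 := (Finset.mem_filter.mp hm).1
    exact (Finset.mem_erase.mp h1).1 rfl
  have huQ : u ∉ QQ k r z u w := by
    intro hm
    have h1 := (Finset.mem_filter.mp hm).1
    have h2 := (Finset.mem_erase.mp h1).2
    unfold OO at h2
    exact (Finset.mem_erase.mp h2).1 rfl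
  have c1 : (insert w (QQ k r z u w)).card = (QQ k r z u w).card + 1 :=
    Finset.card_insert_of_notMem hwQ
  have c2 : (insert u (QQ k r z u w)).card = (QQ k r z u w).card + 1 :=
    Finset.card_insert_of_notMem huQ
  unfold GG
  rw [hQ]
  unfold Phi
  simp only [c1, c2]
  by_cases hk : (QQ k r z u w).card = k
  · have hm := hH _ _ (move_Q hgp hz hu hw hk)
    have hk' : ¬ (k + 1 = k) := by omega
    simp only [hk, hk', true_and, false_and, if_false, hm]
  · by_cases hk2 : (QQ k r z u w).card + 1 = k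
    · have hm := hH _ _ (move_insQ hgp hz hu hw hk2)
      simp only [hk, hk2, true_and, false_and, if_false, hm]
    · simp only [hk, hk2, false_and, if_false]

/-- (M3) if `card Pp = k` then `card Pm = k` (`card_Pp_Pm`), `(u, Pm) = tau (u, Pp)` (`tau_inf`), the state
is realised (`real_inf`), so exactly one of `h (u,Pp)`, `h (u,Pm)` holds; otherwise both terms vanish. -/
theorem inf_term (hz : Gz k r z) (h : St → Prop)
    (hT : ∀ s, (∃ n, Rl k r s n) → (h (tau k s) ↔ ¬ h s)) {u : ℕ} (hu : u < 2 * k + 1) :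
    Phi k h (u, Pp k r z u) + Phi k h (u, Pm k r z u) = if (Pp k r z u).card = k then 1 else 0 := by
  have hc := card_Pp_Pm hz hu
  by_cases hp : (Pp k r z u).card = k
  · have hm : (Pm k r z u).card = k := by omega
    have hx := hT _ ⟨_, real_inf hz hu hp⟩
    rw [tau_inf hz hu] at hx
    rw [if_pos hp]
    unfold Phi
    by_cases hh : h (u, Pp k r z u)
    · have hh' : ¬ h (u, Pm k r z u) := fun h' => (hx.mp h') hh
      rw [if_pos ⟨hp, hh⟩, if_neg (fun h' => hh' h'.2), add_zero]
    · have hh' : h (u, Pm k r z u) := hx.mpr hh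
      rw [if_neg (fun h' => hh h'.2), if_pos ⟨hm, hh'⟩, zero_add]
  · have hm : (Pm k r z u).card ≠ k := by omega
    rw [if_neg hp]
    unfold Phi
    rw [if_neg (fun h' => hp h'.1), if_neg (fun h' => hm h'.1), add_zero]

/-- (M5) the number of halving circles of the pencil through `z` is odd (pencil parity lemma). -/
theorem Hf_odd (hz : Gz k r z) : Odd (Hf k r z).card := by
  classical
  have hodd := Sph28.odd_halving (I := Fin (2 * k + 1)) k (Fintype.card_fin _)
    (fun a b => det3 (r a) z (r b))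
    (fun a b => by unfold det3; ring)
    (fun a b hab => by
      have h1 := hz a a.2 b b.2 (fun hc => hab (Fin.ext hc))
      intro h0
      apply h1
      have : det3 (r a) (r b) z = - det3 (r a) z (r b) := by unfold det3; ring
      rw [this, h0, neg_zero])
    (fun a b c d => by unfold det3; ring)
  have key : ∀ u : Fin (2 * k + 1),
      (univ.filter fun v : Fin (2 * k + 1) => 0 < det3 (r u) z (r v)).card =
        (Pp k r z u).card := by
    intro u
    apply card_bij (fun v _ => v.1)
    · intro v hv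
      rw [mem_filter] at hv
      unfold Pp OO be
      rw [mem_filter, mem_erase, mem_range]
      refine ⟨⟨?_, v.2⟩, hv.2⟩
      intro hc
      have hvu : v = u := Fin.ext hc
      subst hvu
      have h0 : det3 (r v) z (r v) = 0 := by unfold det3; ring
      rw [h0] at hv
      exact lt_irrefl _ hv.2
    · intro a _ b _ hab
      exact Fin.ext hab
    · intro j hj
      unfold Pp OO be at hj
      rw [mem_filter, mem_erase, mem_range] at hj
      exact ⟨⟨j, hj.1.2⟩, by rw [mem_filter]; exact ⟨mem_univ _, hj.2⟩, rfl⟩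
  have hcard : (univ.filter fun u : Fin (2 * k + 1) =>
      (univ.filter fun v : Fin (2 * k + 1) => 0 < det3 (r u) z (r v)).card = k).card =
      (Hf k r z).card := by
    apply card_bij (fun u _ => u.1)
    · intro u hu
      rw [mem_filter] at hu
      unfold Hf
      rw [mem_filter, mem_range]
      exact ⟨u.2, by rw [← key u]; exact hu.2⟩
    · intro a _ b _ hab
      exact Fin.ext hab
    · intro j hj
      unfold Hf at hj
      rw [mem_filter, mem_range] at hj
      refine ⟨⟨j, hj.1⟩, ?_, rfl⟩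
      rw [mem_filter]
      exact ⟨mem_univ _, by rw [key ⟨j, hj.1⟩]; exact hj.2⟩
  rw [← hcard]
  exact hodd

private theorem bad_finite (a b c : ℝ) (h : ¬ (a = 0 ∧ b = 0 ∧ c = 0)) :
    {t : ℝ | a + b * t + c * t ^ 2 = 0}.Finite := by
  classical
  set p : Polynomial ℝ :=
    Polynomial.C a + Polynomial.C b * Polynomial.X + Polynomial.C c * Polynomial.X ^ 2 with hp
  have hp0 : p ≠ 0 := by
    intro h0
    apply h
    have c0 : p.coeff 0 = a := by simp [hp]
    have c1 : p.coeff 1 = b := by simp [hp]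
    have c2 : p.coeff 2 = c := by simp [hp]
    rw [h0] at c0 c1 c2
    simp only [Polynomial.coeff_zero] at c0 c1 c2
    exact ⟨c0.symm, c1.symm, c2.symm⟩
  apply Set.Finite.subset (p.roots.toFinset.finite_toSet)
  intro t ht
  simp only [Finset.mem_coe, Multiset.mem_toFinset, Polynomial.mem_roots hp0,
    Polynomial.IsRoot.def]
  simp only [hp, Polynomial.eval_add, Polynomial.eval_mul, Polynomial.eval_C, Polynomial.eval_X,
    Polynomial.eval_pow]
  exact ht

/-- (M6) a generic vector exists (finitely many planes do not cover the space). -/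
theorem exists_z (hgp : GP k r) (hk : 1 ≤ k) : ∃ z, Gz k r z := by
  classical
  have hfin : (⋃ p ∈ (((range (2 * k + 1)) ×ˢ (range (2 * k + 1))).filter
      (fun p : ℕ × ℕ => p.1 ≠ p.2) : Finset (ℕ × ℕ)),
      {t : ℝ | det3 (r p.1) (r p.2) ((1 : ℝ), t, t ^ 2) = 0}).Finite := by
    apply Set.Finite.biUnion (Finset.finite_toSet _)
    rintro ⟨i, j⟩ hp
    simp only [Finset.coe_filter, Finset.mem_product, Finset.mem_range, Set.mem_ofPred_eq] at hp
    obtain ⟨⟨hi, hj⟩, hij⟩ := hp
    have hl : ∃ l, l < 2 * k + 1 ∧ i ≠ l ∧ j ≠ l := by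
      by_cases a0 : i ≠ 0 ∧ j ≠ 0
      · exact ⟨0, by omega, a0.1, a0.2⟩
      · by_cases a1 : i ≠ 1 ∧ j ≠ 1
        · exact ⟨1, by omega, a1.1, a1.2⟩
        · exact ⟨2, by omega, by omega, by omega⟩
    obtain ⟨l, hl, hil, hjl⟩ := hl
    have hd := hgp i hi j hj l hl hij hil hjl
    have hne : ¬ ((crs (r i) (r j)).1 = 0 ∧ (crs (r i) (r j)).2.1 = 0 ∧
        (crs (r i) (r j)).2.2 = 0) := by
      rintro ⟨e1, e2, e3⟩
      apply hd
      rw [← dot_crs]
      unfold dot
      rw [e1, e2, e3]
      ring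
    refine (bad_finite _ _ _ hne).subset ?_
    intro t ht
    simp only [Set.mem_ofPred_eq] at ht ⊢
    rw [← dot_crs] at ht
    unfold dot at ht
    simp only at ht
    linarith
  obtain ⟨t, ht⟩ := hfin.exists_notMem
  refine ⟨((1 : ℝ), t, t ^ 2), ?_⟩
  intro i hi j hj hij h0
  apply ht
  simp only [Set.mem_iUnion]
  refine ⟨(i, j), ?_, h0⟩
  simp only [Finset.mem_filter, Finset.mem_product, Finset.mem_range]
  exact ⟨⟨hi, hj⟩, hij⟩

/-- (M8) `k = 0`: the state `(0, ∅)` realised by the zero vector is its own antipode. -/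
theorem chain_zero (r : ℕ → V3) :
    ∃ s, (∃ n, Rl 0 r s n) ∧ Relation.ReflTransGen (Move 0 r) s (tau 0 s) := by
  refine ⟨(0, ∅), ⟨(0, 0, 0), ?_⟩, ?_⟩
  · refine ⟨by norm_num, ?_, ?_, ?_, rfl⟩
    · unfold dot
      simp
    · intro j hj hj0
      simp only at hj0
      omega
    · symm
      apply filter_eq_empty_iff.mpr
      intro j _
      unfold dot
      simp
  · have : tau 0 ((0, ∅) : St) = (0, ∅) := by
      unfold tau
      simp
    rw [this]

theorem Hf_even (hgp : GP k r) (hz : Gz k r z)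
    (hno : ∀ s, (∃ n, Rl k r s n) → ¬ Relation.ReflTransGen (Move k r) s (tau k s)) :
    ((Hf k r z).card : ZMod 2) = 0 := by
  obtain ⟨h, hH, hT⟩ := select (Move k r) (tau k) (fun s t => move_symm) (fun s t => move_tau)
  have hT' : ∀ s, (∃ n, Rl k r s n) → (h (tau k s) ↔ ¬ h s) := by
    intro s hs
    obtain ⟨n, hn⟩ := hs
    exact hT s (tau_tau hn) (hno s ⟨n, hn⟩)
  have h1 : ∑ u ∈ range (2 * k + 1), ∑ w ∈ (range (2 * k + 1)).erase u, GG k r z h u w = 0 := by
    apply symm_sum
    intro u hu w hw huw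
    exact GG_symm hgp hz h hH (mem_range.mp hu) (mem_erase.mpr ⟨huw.symm, hw⟩)
  have h2 : ∑ u ∈ range (2 * k + 1), ∑ w ∈ (range (2 * k + 1)).erase u, GG k r z h u w
      = ∑ u ∈ range (2 * k + 1), (if (Pp k r z u).card = k then (1 : ZMod 2) else 0) := by
    apply sum_congr rfl
    intro u hu
    rw [← inf_term hz h hT' (mem_range.mp hu), ← line_sum hgp hz h (mem_range.mp hu)]
    rfl
  rw [h1] at h2
  rw [Hf, card_filter]
  push_cast
  exact h2.symm

/-- Step 2 of the labelling lemma. -/
theorem exists_chain (k : ℕ) (r : ℕ → V3) (hgp : GP k r) :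
    ∃ s, (∃ n, Rl k r s n) ∧ Relation.ReflTransGen (Move k r) s (tau k s) := by
  rcases Nat.eq_zero_or_pos k with rfl | hk
  · exact chain_zero r
  · obtain ⟨z, hz⟩ := exists_z hgp hk
    by_contra hcon
    push_neg at hcon
    have he := Hf_even hgp hz (fun s hs => hcon s hs)
    have ho := Hf_odd (k := k) (r := r) hz
    rw [ZMod.natCast_eq_zero_iff_even] at he
    exact (Nat.not_even_iff_odd.mpr ho) he

end Vale.Agent.P040.Sph81
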