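import Vale.Agent.P040.Sph81.Defs

/-! # Algebraic identities (all: unfold, ring) -/

namespace Vale.Agent.P040.Sph81

open Finset Vale.Agent.P040.Sph56

theorem dot_lin (a b x : V3) (t : ℝ) : dot (lin a b t) x = dot a x + t * dot b x := by
  unfold dot lin; ring

theorem dot_crs (p q x : V3) : dot (crs p q) x = det3 p q x := by
  unfold dot crs det3; ring

theorem det3_rot (a b c : V3) : det3 a b c = det3 b c a := by
  unfold det3; ring

theorem det3_swap (a b c : V3) : det3 a b c = - det3 b a c := by
  unfold det3; ring

theorem det3_swap' (a b c : V3) : det3 a b c = - det3 a c b := by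
  unfold det3; ring

theorem det3_self (a c : V3) : det3 a a c = 0 := by
  unfold det3; ring

theorem al_self (p q : V3) : al p q p = 0 := by
  unfold al dot crs; ring

theorem be_self (p q : V3) : be p q p = 0 := by
  unfold be det3; ring

theorem dot_ng (n x : V3) : dot (ng n) x = - dot n x := by
  unfold dot ng; ring

/-- Binet-Cauchy in the chart -/
theorem binet (p q x y : V3) :
    al p q x * be p q y - al p q y * be p q x = dot (crs p q) (crs p q) * det3 p x y := by
  unfold al be dot crs det3; ring

theorem nsq_pos (p q x : V3) (h : be p q x ≠ 0) : 0 < dot (crs p q) (crs p q) := by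
  have h0 : dot (crs p q) x ≠ 0 := by rw [dot_crs]; exact h
  generalize crs p q = c at h0 ⊢
  have h1 : 0 ≤ dot c c := by
    unfold dot; nlinarith [mul_self_nonneg c.1, mul_self_nonneg c.2.1, mul_self_nonneg c.2.2]
  rcases h1.lt_or_eq with h2 | h2
  · exact h2
  · exfalso
    apply h0
    unfold dot at h2
    have e1 : c.1 = 0 := by
      nlinarith [mul_self_nonneg c.1, mul_self_nonneg c.2.1, mul_self_nonneg c.2.2]
    have e2 : c.2.1 = 0 := by
      nlinarith [mul_self_nonneg c.1, mul_self_nonneg c.2.1, mul_self_nonneg c.2.2]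
    have e3 : c.2.2 = 0 := by
      nlinarith [mul_self_nonneg c.1, mul_self_nonneg c.2.1, mul_self_nonneg c.2.2]
    unfold dot; rw [e1, e2, e3]; ring

end Vale.Agent.P040.Sph81
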