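import Vale.Agent.P040.Sph81.Alg
import Vale.Agent.P040.Sph81.Tele

/-! # The chart of the circle of `r u` -/

namespace Vale.Agent.P040.Sph81

open Finset Vale.Agent.P040.Sph56

variable {k : ℕ} {r : ℕ → V3} {z : V3}

/-- (C0) `be = det3 (r u) z (r x) = - det3 (r u) (r x) z` (`det3_swap'`), nonzero by `Gz`. -/
theorem be_ne (hz : Gz k r z) {u x : ℕ} (hu : u < 2 * k + 1) (hx : x ∈ OO k u) :
    be (r u) z (r x) ≠ 0 := by
  unfold OO at hx
  have hx1 : x ≠ u := (Finset.mem_erase.mp hx).1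
  have hx2 : x < 2 * k + 1 := Finset.mem_range.mp (Finset.mem_erase.mp hx).2
  unfold be
  rw [det3_swap']
  exact neg_ne_zero.mpr (hz u hu x hx2 (Ne.symm hx1))

/-- (C1) the roots are distinct: if `x ≠ y`, `binet` gives
`al x * be y - al y * be x = nsq * det3 (r u) (r x) (r y) ≠ 0` (`nsq_pos`, `GP`), while equal roots give
`al x * be y = al y * be x` (`div_eq_div_iff`, `be_ne`). -/
theorem tt_inj (hgp : GP k r) (hz : Gz k r z) {u : ℕ} (hu : u < 2 * k + 1) :
    ∀ x ∈ OO k u, ∀ y ∈ OO k u, tt (r u) z (r x) = tt (r u) z (r y) → x = y := by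
  intro x hx y hy h
  by_contra hxy
  have bx := be_ne hz hu hx
  have by' := be_ne hz hu hy
  have hb := binet (r u) z (r x) (r y)
  have hn := nsq_pos (r u) z (r x) bx
  unfold tt at h
  rw [div_eq_div_iff bx by'] at h
  have hx' := mem_erase.1 hx
  have hy' := mem_erase.1 hy
  have hdet : det3 (r u) (r x) (r y) ≠ 0 :=
    hgp u hu x (mem_range.1 hx'.2) y (mem_range.1 hy'.2) (Ne.symm hx'.1) (Ne.symm hy'.1) hxy
  have h0 : dot (crs (r u) z) (crs (r u) z) * det3 (r u) (r x) (r y) = 0 := by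
    rw [← hb]
    linarith
  rcases mul_eq_zero.1 h0 with h1 | h1
  · exact hn.ne' h1
  · exact hdet h1

/-- (C2) sign of `x` at the root of `w`:
`be x * (tt w - tt x) = (al x * be w - al w * be x) / be w = nsq * det3 u x w / det3 u z w`
`= nsq * det3 u w x / det3 u w z` (`binet`, `det3_swap'`), and `0 < a / b ↔ 0 < a * b`. -/
theorem vertex_sign (hz : Gz k r z) {u w x : ℕ} (hu : u < 2 * k + 1)
    (hw : w ∈ OO k u) (hx : x ∈ OO k u) :
    0 < be (r u) z (r x) * (tt (r u) z (r w) - tt (r u) z (r x)) ↔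
      0 < det3 (r u) (r w) (r x) * det3 (r u) (r w) z := by
  have bx := be_ne hz hu hx
  have bw := be_ne hz hu hw
  have hn := nsq_pos (r u) z (r w) bw
  have e1 : be (r u) z (r x) * (tt (r u) z (r w) - tt (r u) z (r x)) =
      (al (r u) z (r x) * be (r u) z (r w) - al (r u) z (r w) * be (r u) z (r x)) /
        be (r u) z (r w) := by
    unfold tt
    field_simp
    ring
  have e2 : be (r u) z (r w) = - det3 (r u) (r w) z := by
    unfold be
    exact det3_swap' _ _ _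
  have e3 : det3 (r u) (r x) (r w) = - det3 (r u) (r w) (r x) := det3_swap' _ _ _
  rw [e1, binet, e3, e2, mul_neg, neg_div_neg_eq, mul_div_assoc, mul_pos_iff_of_pos_left hn,
    div_pos_iff, mul_pos_iff]

/-- (C3) `ext x`; for `x = w`: `w ∈ Rs`; for `x ≠ w`: `tt x ≤ tt w ↔ tt x < tt w` (`tt_inj`), then
`vertex_sign` with the sign of `be x` (`be_ne`, `mul_pos_iff`). -/
theorem PD_Rs (hgp : GP k r) (hz : Gz k r z) {u w : ℕ} (hu : u < 2 * k + 1) (hw : w ∈ OO k u) :
    PD r (r u) z (OO k u) (Rs r (r u) z (OO k u) w) =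
      if 0 < be (r u) z (r w) then insert w (QQ k r z u w) else QQ k r z u w := by
  have key : ∀ x ∈ OO k u, x ≠ w →
      (((0 < be (r u) z (r x) ∧ tt (r u) z (r x) ≤ tt (r u) z (r w)) ∨
        (be (r u) z (r x) < 0 ∧ ¬ tt (r u) z (r x) ≤ tt (r u) z (r w))) ↔
        0 < det3 (r u) (r w) (r x) * det3 (r u) (r w) z) := by
    intro x hx hxw
    rw [← vertex_sign hz hu hw hx, mul_pos_iff]
    have hne : tt (r u) z (r x) ≠ tt (r u) z (r w) := fun h => hxw (tt_inj hgp hz hu x hx w hw h)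
    constructor
    · rintro (⟨h1, h2⟩ | ⟨h1, h2⟩)
      · left; exact ⟨h1, sub_pos.2 (lt_of_le_of_ne h2 hne)⟩
      · right; exact ⟨h1, sub_neg.2 (not_le.1 h2)⟩
    · rintro (⟨h1, h2⟩ | ⟨h1, h2⟩)
      · left; exact ⟨h1, (sub_pos.1 h2).le⟩
      · right; exact ⟨h1, not_le.2 (sub_neg.1 h2)⟩
  ext x
  by_cases hx : x ∈ OO k u
  · by_cases hxw : x = w
    · subst hxw
      have hnQ : x ∉ QQ k r z u x := by simp [QQ]
      split_ifs with hb
      · simp [PD, Rs, hx, hb]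
      · simp [PD, Rs, hx, hb, hnQ]
    · have hk := key x hx hxw
      have hQ : x ∈ QQ k r z u w ↔ 0 < det3 (r u) (r w) (r x) * det3 (r u) (r w) z := by
        simp [QQ, hx, hxw]
      have hP : x ∈ PD r (r u) z (OO k u) (Rs r (r u) z (OO k u) w) ↔
          ((0 < be (r u) z (r x) ∧ tt (r u) z (r x) ≤ tt (r u) z (r w)) ∨
        (be (r u) z (r x) < 0 ∧ ¬ tt (r u) z (r x) ≤ tt (r u) z (r w))) := by
        simp [PD, Rs, hx]
      rw [hP, hk, ← hQ]
      split_ifs <;> simp [hxw]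
  · have hxw : x ≠ w := fun h => hx (h ▸ hw)
    have hnQ : x ∉ QQ k r z u w := by simp [QQ, hx]
    split_ifs <;> simp [PD, hx, hnQ, hxw]

/-- (C4) same as (C3) with `w ∉ Ls`. -/
theorem PD_Ls (hgp : GP k r) (hz : Gz k r z) {u w : ℕ} (hu : u < 2 * k + 1) (hw : w ∈ OO k u) :
    PD r (r u) z (OO k u) (Ls r (r u) z (OO k u) w) =
      if 0 < be (r u) z (r w) then QQ k r z u w else insert w (QQ k r z u w) := by
  have key : ∀ x ∈ OO k u, x ≠ w →
      (((0 < be (r u) z (r x) ∧ tt (r u) z (r x) < tt (r u) z (r w)) ∨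
        (be (r u) z (r x) < 0 ∧ ¬ tt (r u) z (r x) < tt (r u) z (r w))) ↔
        0 < det3 (r u) (r w) (r x) * det3 (r u) (r w) z) := by
    intro x hx hxw
    rw [← vertex_sign hz hu hw hx, mul_pos_iff]
    have hne : tt (r u) z (r x) ≠ tt (r u) z (r w) := fun h => hxw (tt_inj hgp hz hu x hx w hw h)
    constructor
    · rintro (⟨h1, h2⟩ | ⟨h1, h2⟩)
      · left; exact ⟨h1, sub_pos.2 h2⟩
      · right; exact ⟨h1, sub_neg.2 (lt_of_le_of_ne (not_lt.1 h2) (Ne.symm hne))⟩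
    · rintro (⟨h1, h2⟩ | ⟨h1, h2⟩)
      · left; exact ⟨h1, sub_pos.1 h2⟩
      · right; exact ⟨h1, not_lt.2 (sub_neg.1 h2).le⟩
  have hbw : be (r u) z (r w) ≠ 0 := be_ne hz hu hw
  ext x
  by_cases hx : x ∈ OO k u
  · by_cases hxw : x = w
    · subst hxw
      have hnQ : x ∉ QQ k r z u x := by simp [QQ]
      split_ifs with hb
      · simp [PD, Ls, hx, hb, hnQ, hb.le]
      · have hb' : be (r u) z (r x) < 0 := lt_of_le_of_ne (not_lt.1 hb) hbw
        simp [PD, Ls, hx, hb']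
    · have hk := key x hx hxw
      have hQ : x ∈ QQ k r z u w ↔ 0 < det3 (r u) (r w) (r x) * det3 (r u) (r w) z := by
        simp [QQ, hx, hxw]
      have hP : x ∈ PD r (r u) z (OO k u) (Ls r (r u) z (OO k u) w) ↔
          ((0 < be (r u) z (r x) ∧ tt (r u) z (r x) < tt (r u) z (r w)) ∨
        (be (r u) z (r x) < 0 ∧ ¬ tt (r u) z (r x) < tt (r u) z (r w))) := by
        simp [PD, Ls, hx]
      rw [hP, hk, ← hQ]
      split_ifs <;> simp [hxw]
  · have hxw : x ≠ w := fun h => hx (h ▸ hw)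
    have hnQ : x ∉ QQ k r z u w := by simp [QQ, hx]
    split_ifs <;> simp [PD, hx, hnQ, hxw]

/-- (C5) -/
theorem PD_full (u : ℕ) : PD r (r u) z (OO k u) (OO k u) = Pp k r z u := by
  unfold PD Pp
  apply filter_congr
  intro x hx
  constructor
  · rintro (⟨h, _⟩ | ⟨_, h⟩)
    · exact h
    · exact absurd hx h
  · exact fun h => Or.inl ⟨h, hx⟩

/-- (C6) -/
theorem PD_empty (u : ℕ) : PD r (r u) z (OO k u) ∅ = Pm k r z u := by
  unfold PD Pm
  apply filter_congr
  intro x hx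
  constructor
  · rintro (⟨_, h⟩ | ⟨h, _⟩)
    · exact absurd h (notMem_empty x)
    · exact h
  · exact fun h => Or.inr ⟨h, notMem_empty x⟩

/-- (M1) `tele` with `key x = tt (r u) z (r x)`, `Psi D = Phi k h (u, PD r (r u) z (OO k u) D)`,
`S = OO k u` (`tt_inj`); the filters are `Rs`, `Ls` by definition; rewrite with `PD_Rs`, `PD_Ls`,
`PD_full`, `PD_empty`; `split_ifs`; in `ZMod 2` subtraction is addition (`CharTwo.sub_eq_add`), `add_comm`. -/
theorem line_sum (hgp : GP k r) (hz : Gz k r z) (h : St → Prop) {u : ℕ} (hu : u < 2 * k + 1) :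
    ∑ w ∈ OO k u, GG k r z h u w = Phi k h (u, Pp k r z u) + Phi k h (u, Pm k r z u) := by
  have T := tele (fun x => tt (r u) z (r x)) (fun D => Phi k h (u, PD r (r u) z (OO k u) D))
    (OO k u) (tt_inj hgp hz hu)
  rw [PD_full, PD_empty, CharTwo.sub_eq_add] at T
  rw [← T]
  apply sum_congr rfl
  intro w hw
  have h1 := PD_Rs hgp hz hu hw
  have h2 := PD_Ls hgp hz hu hw
  unfold Rs at h1
  unfold Ls at h2
  rw [h1, h2]
  unfold GG
  split_ifs
  · rw [CharTwo.sub_eq_add, add_comm]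
  · rw [CharTwo.sub_eq_add]

end Vale.Agent.P040.Sph81
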