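import Vale.Agent.P040.Sph56.Defs

/-!
# Labelling lemma on the sphere, step 2: some halving state is connected to its antipode
Definitions.  Chart of the circle `p^⊥` with reference vector `q`: `n(t) = a + t b`, `b = p × q`, `a = b × p`.
-/

namespace Vale.Agent.P040.Sph81

open Finset Vale.Agent.P040.Sph56

/-- any three of the vectors `r 0, …, r (2k)` are linearly independent -/
def GP (k : ℕ) (r : ℕ → V3) : Prop :=
  ∀ i < 2 * k + 1, ∀ j < 2 * k + 1, ∀ l < 2 * k + 1, i ≠ j → i ≠ l → j ≠ l →
    det3 (r i) (r j) (r l) ≠ 0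

/-- the auxiliary vector `z` is generic -/
def Gz (k : ℕ) (r : ℕ → V3) (z : V3) : Prop :=
  ∀ i < 2 * k + 1, ∀ j < 2 * k + 1, i ≠ j → det3 (r i) (r j) z ≠ 0

/-- abstract state: pivot and positive set -/
abbrev St : Type := ℕ × Finset ℕ

/-- the state `s` is a halving state realised by the normal `n` -/
def Rl (k : ℕ) (r : ℕ → V3) (s : St) (n : V3) : Prop :=
  s.1 < 2 * k + 1 ∧ dot n (r s.1) = 0 ∧ (∀ j < 2 * k + 1, j ≠ s.1 → dot n (r j) ≠ 0) ∧
    s.2 = (range (2 * k + 1)).filter (fun j => 0 < dot n (r j)) ∧ s.2.card = k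

/-- a windmill move between realisable halving states -/
def Move (k : ℕ) (r : ℕ → V3) (s t : St) : Prop :=
  (∃ n, Rl k r s n) ∧ (∃ n, Rl k r t n) ∧ s.1 ≠ t.1 ∧
    ((t.1 ∉ s.2 ∧ t.2 = s.2) ∨ (t.1 ∈ s.2 ∧ t.2 = insert s.1 (s.2.erase t.1)))

/-- the antipodal state -/
def tau (k : ℕ) (s : St) : St := (s.1, ((range (2 * k + 1)).erase s.1) \ s.2)

/-- slope of the affine function `t ↦ dot (n t) x` -/
def be (p q x : V3) : ℝ := det3 p q x

/-- constant term of the affine function `t ↦ dot (n t) x` -/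
def al (p q x : V3) : ℝ := dot (crs (crs p q) p) x

/-- root of the affine function -/
noncomputable def tt (p q x : V3) : ℝ := - al p q x / be p q x

/-- `a + t b` -/
def lin (a b : V3) (t : ℝ) : V3 := (a.1 + t * b.1, a.2.1 + t * b.2.1, a.2.2 + t * b.2.2)

/-- the other indices -/
def OO (k u : ℕ) : Finset ℕ := (range (2 * k + 1)).erase u

/-- positive set of the arc given by the down-set `D` of the keys -/
noncomputable def PD (r : ℕ → V3) (p q : V3) (S D : Finset ℕ) : Finset ℕ :=
  S.filter (fun x => (0 < be p q (r x) ∧ x ∈ D) ∨ (be p q (r x) < 0 ∧ x ∉ D))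

/-- down-set just right of the root of `w` -/
noncomputable def Rs (r : ℕ → V3) (p q : V3) (S : Finset ℕ) (w : ℕ) : Finset ℕ :=
  S.filter (fun x => tt p q (r x) ≤ tt p q (r w))

/-- down-set just left of the root of `w` -/
noncomputable def Ls (r : ℕ → V3) (p q : V3) (S : Finset ℕ) (w : ℕ) : Finset ℕ :=
  S.filter (fun x => tt p q (r x) < tt p q (r w))

/-- positive set at the vertex of the circles of `u` and `w` (in the hemisphere of `z`) -/
noncomputable def QQ (k : ℕ) (r : ℕ → V3) (z : V3) (u w : ℕ) : Finset ℕ :=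
  ((OO k u).erase w).filter (fun x => 0 < det3 (r u) (r w) (r x) * det3 (r u) (r w) z)

/-- positive set of the normal `crs (r u) z` -/
noncomputable def Pp (k : ℕ) (r : ℕ → V3) (z : V3) (u : ℕ) : Finset ℕ :=
  (OO k u).filter (fun x => 0 < be (r u) z (r x))

/-- negative set of the normal `crs (r u) z` -/
noncomputable def Pm (k : ℕ) (r : ℕ → V3) (z : V3) (u : ℕ) : Finset ℕ :=
  (OO k u).filter (fun x => be (r u) z (r x) < 0)

open Classical in
/-- indicator (mod 2) of the halving states selected by `h` -/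
noncomputable def Phi (k : ℕ) (h : St → Prop) (s : St) : ZMod 2 :=
  if s.2.card = k ∧ h s then 1 else 0

/-- the contribution of the vertex `u, w` seen from the circle of `u` -/
noncomputable def GG (k : ℕ) (r : ℕ → V3) (z : V3) (h : St → Prop) (u w : ℕ) : ZMod 2 :=
  Phi k h (u, QQ k r z u w) + Phi k h (u, insert w (QQ k r z u w))

/-- the pivots whose pencil circle through `z` is halving -/
noncomputable def Hf (k : ℕ) (r : ℕ → V3) (z : V3) : Finset ℕ :=
  (range (2 * k + 1)).filter (fun u => (Pp k r z u).card = k)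

end Vale.Agent.P040.Sph81
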