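import Vale.Agent.P040.Sph81.Glue
import Vale.Agent.P040.Sph56.Pair
import Vale.Agent.P040.Sph80.GMain

/-! # The Zarankiewicz bound for all spherical geodesic drawings (assembly) -/

namespace Vale.Agent.P040.Sph81

open Vale.Agent.P040

theorem pairIneqS (k : ℕ) : Sph40.PairIneqS k := by
  intro r nn e b b' hL hb hb' hp
  exact Sph56.pair_ineq hL hb hb' hp

theorem labAll (k : ℕ) : Sph80.LabAll k := by
  intro v h
  exact exists_lab k v h

/-- every spherical geodesic drawing of `K_{m,n}` has at least the Zarankiewicz number of crossings -/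
theorem geo_all (m n : ℕ) (D : Sph80.GeoDrawing m n) :
    (m / 2) * ((m - 1) / 2) * ((n / 2) * ((n - 1) / 2)) ≤ D.crossings :=
  Sph80.geo_all_of pairIneqS labAll m n D

end Vale.Agent.P040.Sph81
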