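import Vale.Agent.P040.Sph81.Main
import Vale.Agent.P040.Wind30.Labels

/-! # The labelling lemma from `exists_chain` and `Wind30.lab_of_reach` -/

namespace Vale.Agent.P040.Sph81

open Finset Vale.Agent.P040.Sph56

variable {k : ℕ}

/-- extension of a family indexed by `Fin (2k+1)` -/
noncomputable def ext (v : Fin (2 * k + 1) → V3) (i : ℕ) : V3 :=
  if h : i < 2 * k + 1 then v ⟨i, h⟩ else 0

theorem ext_val (v : Fin (2 * k + 1) → V3) (q : Fin (2 * k + 1)) : ext v q.1 = v q := by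
  unfold ext
  rw [dif_pos q.2]

theorem GP_ext (v : Fin (2 * k + 1) → V3)
    (h : ∀ a b c, a ≠ b → a ≠ c → b ≠ c → det3 (v a) (v b) (v c) ≠ 0) : GP k (ext v) := by
  intro i hi j hj l hl hij hil hjl
  have e1 := ext_val v ⟨i, hi⟩
  have e2 := ext_val v ⟨j, hj⟩
  have e3 := ext_val v ⟨l, hl⟩
  simp only at e1 e2 e3
  rw [e1, e2, e3]
  apply h
  · intro hc; exact hij (congrArg Fin.val hc)
  · intro hc; exact hil (congrArg Fin.val hc)
  · intro hc; exact hjl (congrArg Fin.val hc)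

theorem lift_chain (r : ℕ → V3) {s t : St} (hs : ∃ n, Rl k r s n)
    (hch : Relation.ReflTransGen (Move k r) s t) :
    ∃ ht : (∃ n, Rl k r t n),
      Relation.ReflTransGen (fun a b : {s : St // ∃ n, Rl k r s n} => Move k r a.1 b.1)
        ⟨s, hs⟩ ⟨t, ht⟩ := by
  induction hch with
  | refl => exact ⟨hs, Relation.ReflTransGen.refl⟩
  | tail _ hbc ih =>
    obtain ⟨hb, ihb⟩ := ih
    exact ⟨hbc.2.1, ihb.tail hbc⟩

theorem mem_iff {r : ℕ → V3} {s : St} {n : V3} (h : Rl k r s n) {j : ℕ} (hj : j < 2 * k + 1) :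
    j ∈ s.2 ↔ 0 < dot n (r j) := by
  rw [h.2.2.2.1, mem_filter, mem_range]
  exact ⟨fun x => x.2, fun x => ⟨hj, x⟩⟩

theorem halv_of_Rl (v : Fin (2 * k + 1) → V3) {s : St} {n : V3} (h : Rl k (ext v) s n) :
    Wind30.Halv k v n ⟨s.1, h.1⟩ where
  perp := by
    have := h.2.1
    rwa [← ext_val v ⟨s.1, h.1⟩]
  ne := by
    intro q hq
    rw [← ext_val v q]
    apply h.2.2.1 q.1 q.2
    intro hc
    exact hq (Fin.ext hc)
  card := by
    have hc : ((range (2 * k + 1)).filter (fun j => 0 < dot n (ext v j))).card = k := by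
      rw [← h.2.2.2.1]; exact h.2.2.2.2
    refine Eq.trans ?_ hc
    apply card_bij (fun q _ => q.1)
    · intro q hq
      rw [mem_filter] at hq
      rw [mem_filter, mem_range, ext_val]
      exact ⟨q.2, hq.2⟩
    · intro a _ b _ hab
      exact Fin.ext hab
    · intro j hj
      rw [mem_filter, mem_range] at hj
      refine ⟨⟨j, hj.1⟩, ?_, rfl⟩
      rw [mem_filter]
      refine ⟨mem_univ _, ?_⟩
      rw [← ext_val v ⟨j, hj.1⟩]
      exact hj.2

/-- **The labelling lemma.** -/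
theorem exists_lab (k : ℕ) (v : Fin (2 * k + 1) → V3)
    (h : ∀ a b c, a ≠ b → a ≠ c → b ≠ c → det3 (v a) (v b) (v c) ≠ 0) :
    ∃ (σ : Fin (2 * k + 1) ≃ Fin (2 * k + 1)) (nn : ℕ → V3),
      Lab k (fun i => if h : i < 2 * k + 1 then v (σ ⟨i, h⟩) else 0) nn := by
  obtain ⟨s, hs, hch⟩ := exists_chain k (ext v) (GP_ext v h)
  obtain ⟨ht, hl⟩ := lift_chain (ext v) hs hch
  refine Wind30.lab_of_reach (v := v)
    (fun a b : {s : St // ∃ n, Rl k (ext v) s n} => Move k (ext v) a.1 b.1)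
    (fun a => a.2.choose) (fun a => ⟨a.1.1, a.2.choose_spec.1⟩)
    (fun a => halv_of_Rl v a.2.choose_spec) ?_ ⟨s, hs⟩ ⟨tau k s, ht⟩ hl rfl ?_
  · intro a b hab q hqa hqb
    have ha := a.2.choose_spec
    have hb := b.2.choose_spec
    have h1 : q.1 ≠ a.1.1 := fun hc => hqa (Fin.ext hc)
    have h2 : q.1 ≠ b.1.1 := fun hc => hqb (Fin.ext hc)
    rw [← ext_val v q, ← mem_iff ha q.2, ← mem_iff hb q.2]
    rcases hab.2.2.2 with ⟨_, e⟩ | ⟨_, e⟩
    · rw [e]
    · rw [e, mem_insert, mem_erase]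
      constructor
      · intro hx; exact Or.inr ⟨h2, hx⟩
      · rintro (hx | hx)
        · exact absurd hx h1
        · exact hx.2
  · intro q hq
    have h0 := hs.choose_spec
    have h1 := ht.choose_spec
    have hq' : q.1 ≠ s.1 := fun hc => hq (Fin.ext hc)
    have e1 := mem_iff h1 q.2
    have e0 := mem_iff h0 q.2
    have hne := h0.2.2.1 q.1 q.2 hq'
    rw [ext_val] at e1 e0 hne
    show 0 < dot ht.choose (v q) ↔ dot hs.choose (v q) < 0
    rw [← e1]
    unfold tau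
    simp only [mem_sdiff, mem_erase, mem_range]
    constructor
    · rintro ⟨_, hx⟩
      rw [e0] at hx
      exact lt_of_le_of_ne (not_lt.mp hx) hne
    · intro hx
      refine ⟨⟨hq', q.2⟩, ?_⟩
      rw [e0]
      exact not_lt.mpr hx.le

end Vale.Agent.P040.Sph81
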